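import Vale.Agent.Lib.P219.LL.Half

/-! # P219 Line Lemma -/

namespace Vale.Agent.Lib.P219.LL

open MeasureTheory Set
open scoped ENNReal

private theorem main_abs (x : ℝ) :
    ENNReal.ofReal x + ENNReal.ofReal (-x) = ENNReal.ofReal |x| := by
  rcases le_total 0 x with h | h
  · rw [abs_of_nonneg h, ENNReal.ofReal_of_nonpos (by linarith : -x ≤ 0), add_zero]
  · rw [abs_of_nonpos h, ENNReal.ofReal_of_nonpos h, zero_add]

private theorem main_one (x : ℝ) (h0 : 0 ≤ x) (h1 : x ≤ 1) :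
    ENNReal.ofReal (1 - x) + ENNReal.ofReal x = 1 := by
  rw [← ENNReal.ofReal_add (by linarith) h0, sub_add_cancel, ENNReal.ofReal_one]

private theorem main_ind (W : Set (ℝ × ℝ)) (F : ℝ × ℝ → ℝ≥0∞) (p : ℝ × ℝ) :
    W.indicator F p = W.indicator (fun _ => (1 : ℝ≥0∞)) p * F p := by
  by_cases h : p ∈ W
  · rw [indicator_of_mem h, indicator_of_mem h, one_mul]
  · rw [indicator_of_notMem h, indicator_of_notMem h, zero_mul]

/-- **Line Lemma** (layered form of Croke's chord inequality). -/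
theorem line_lemma {f : ℝ → ℝ} (hf : Good f) {d : ℝ} (hd : 0 ≤ d) {φ : ℝ → ℝ≥0∞}
    (hφ : Measurable φ) :
    ENNReal.ofReal d * ∫⁻ t, ENNReal.ofReal (f t ^ 2)
      ≤ (∫⁻ a, ∫⁻ b in Ioi a, ENNReal.ofReal (deriv f a) * ENNReal.ofReal (-(deriv f b))
            * (ENNReal.ofReal (d * (b - a)) - (φ a + φ b)))
        + ∫⁻ t, ENNReal.ofReal |deriv f t| * φ t := by
  have hfc : Continuous f := hf.smooth.continuous
  have hm1 := measurableSet_W1 hfc hf.supp hf.nonneg
  have hm2 := measurableSet_W2 hfc hf.supp hf.nonneg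
  have hdm : Measurable (deriv f) := measurable_deriv f
  set g : ℝ → ℝ≥0∞ := fun a => ENNReal.ofReal (deriv f a) with hg
  set h : ℝ → ℝ≥0∞ := fun b => ENNReal.ofReal (-(deriv f b)) with hh
  have hgm : Measurable g := hdm.ennreal_ofReal
  have hhm : Measurable h := hdm.neg.ennreal_ofReal
  set I1 : ℝ × ℝ → ℝ≥0∞ := (W1 f).indicator (fun _ => (1 : ℝ≥0∞)) with hI1
  set I2 : ℝ × ℝ → ℝ≥0∞ := (W2 f).indicator (fun _ => (1 : ℝ≥0∞)) with hI2
  have hI1m : Measurable I1 := measurable_const.indicator hm1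
  have hI2m : Measurable I2 := measurable_const.indicator hm2
  have hg1 : Measurable fun p : ℝ × ℝ => g p.1 := hgm.comp measurable_fst
  have hh2 : Measurable fun p : ℝ × ℝ => h p.2 := hhm.comp measurable_snd
  have hφ1 : Measurable fun p : ℝ × ℝ => φ p.1 := hφ.comp measurable_fst
  have hφ2 : Measurable fun p : ℝ × ℝ => φ p.2 := hφ.comp measurable_snd
  have hl : Measurable fun p : ℝ × ℝ => ENNReal.ofReal (p.2 - p.1) :=
    (measurable_snd.sub measurable_fst).ennreal_ofReal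
  have hD : Measurable fun p : ℝ × ℝ => ENNReal.ofReal (d * (p.2 - p.1)) :=
    ((measurable_snd.sub measurable_fst).const_mul d).ennreal_ofReal
  have hX : Measurable fun p : ℝ × ℝ => g p.1 * h p.2 * ENNReal.ofReal (p.2 - p.1) :=
    (hg1.mul hh2).mul hl
  have hA1 : Measurable fun p : ℝ × ℝ => I1 p * (g p.1 * h p.2 * ENNReal.ofReal (p.2 - p.1)) :=
    hI1m.mul hX
  have hA2 : Measurable fun p : ℝ × ℝ => I2 p * (g p.1 * h p.2 * ENNReal.ofReal (p.2 - p.1)) :=
    hI2m.mul hX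
  -- step 1
  have step1 : ∫⁻ t, ENNReal.ofReal (f t ^ 2) ≤
      ∫⁻ p : ℝ × ℝ, (I1 p + I2 p) * (g p.1 * h p.2 * ENNReal.ofReal (p.2 - p.1)) := by
    have e0 : ∀ t, ENNReal.ofReal (f t ^ 2) = ENNReal.ofReal (f t ^ 2 / 2) +
        ENNReal.ofReal (f t ^ 2 / 2) := by
      intro t
      rw [← ENNReal.ofReal_add (by positivity) (by positivity)]
      congr 1
      ring
    have hfm : Measurable fun t => ENNReal.ofReal (f t ^ 2 / 2) :=
      ((hfc.measurable.pow_const 2).div_const 2).ennreal_ofReal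
    have l1 : ∫⁻ t, ENNReal.ofReal (f t ^ 2 / 2) ≤
        ∫⁻ p : ℝ × ℝ, I1 p * (g p.1 * h p.2 * ENNReal.ofReal (p.2 - p.1)) := by
      refine (len_W1 hf).trans (le_of_eq ?_)
      rw [Measure.volume_eq_prod, lintegral_prod _ hA1.aemeasurable]
      refine lintegral_congr fun a => lintegral_congr fun b => ?_
      exact main_ind (W1 f) _ (a, b)
    have l2 : ∫⁻ t, ENNReal.ofReal (f t ^ 2 / 2) ≤
        ∫⁻ p : ℝ × ℝ, I2 p * (g p.1 * h p.2 * ENNReal.ofReal (p.2 - p.1)) := by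
      refine (len_W2 hf).trans (le_of_eq ?_)
      rw [Measure.volume_eq_prod, lintegral_prod _ hA2.aemeasurable]
      refine lintegral_congr fun a => lintegral_congr fun b => ?_
      exact main_ind (W2 f) _ (a, b)
    simp only [e0, add_mul]
    rw [lintegral_add_left hfm, lintegral_add_left hA1]
    exact add_le_add l1 l2
  -- step 2
  have step2 : ENNReal.ofReal d * ∫⁻ t, ENNReal.ofReal (f t ^ 2) ≤
      ∫⁻ p : ℝ × ℝ, (I1 p + I2 p) * (g p.1 * h p.2 * ENNReal.ofReal (d * (p.2 - p.1))) := by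
    refine (mul_le_mul_right step1 _).trans (le_of_eq ?_)
    rw [← lintegral_const_mul' _ _ ENNReal.ofReal_ne_top]
    refine lintegral_congr fun p => ?_
    rw [ENNReal.ofReal_mul hd]
    ring
  have hI : Measurable fun p : ℝ × ℝ => I1 p + I2 p := hI1m.add hI2m
  have hT : Measurable fun p : ℝ × ℝ => (I1 p + I2 p) * (g p.1 * h p.2 *
      (ENNReal.ofReal (d * (p.2 - p.1)) - (φ p.1 + φ p.2))) :=
    hI.mul ((hg1.mul hh2).mul (hD.sub (hφ1.add hφ2)))
  have hL : Measurable fun p : ℝ × ℝ => (I1 p + I2 p) * (g p.1 * h p.2 * φ p.1) :=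
    hI.mul ((hg1.mul hh2).mul hφ1)
  have hR : Measurable fun p : ℝ × ℝ => (I1 p + I2 p) * (g p.1 * h p.2 * φ p.2) :=
    hI.mul ((hg1.mul hh2).mul hφ2)
  have step3 : ∫⁻ p : ℝ × ℝ, (I1 p + I2 p) * (g p.1 * h p.2 * ENNReal.ofReal (d * (p.2 - p.1))) ≤
      (∫⁻ p : ℝ × ℝ, (I1 p + I2 p) * (g p.1 * h p.2 *
        (ENNReal.ofReal (d * (p.2 - p.1)) - (φ p.1 + φ p.2)))) +
      ((∫⁻ p : ℝ × ℝ, (I1 p + I2 p) * (g p.1 * h p.2 * φ p.1)) +
        ∫⁻ p : ℝ × ℝ, (I1 p + I2 p) * (g p.1 * h p.2 * φ p.2)) := by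
    rw [← lintegral_add_left hL, ← lintegral_add_left hT]
    refine lintegral_mono fun p => ?_
    show (I1 p + I2 p) * (g p.1 * h p.2 * ENNReal.ofReal (d * (p.2 - p.1))) ≤
      (I1 p + I2 p) * (g p.1 * h p.2 * (ENNReal.ofReal (d * (p.2 - p.1)) - (φ p.1 + φ p.2))) +
      ((I1 p + I2 p) * (g p.1 * h p.2 * φ p.1) + (I1 p + I2 p) * (g p.1 * h p.2 * φ p.2))
    have e : (I1 p + I2 p) * (g p.1 * h p.2 * (ENNReal.ofReal (d * (p.2 - p.1)) -
        (φ p.1 + φ p.2))) +
        ((I1 p + I2 p) * (g p.1 * h p.2 * φ p.1) + (I1 p + I2 p) * (g p.1 * h p.2 * φ p.2)) =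
        (I1 p + I2 p) * (g p.1 * h p.2 * ((ENNReal.ofReal (d * (p.2 - p.1)) -
        (φ p.1 + φ p.2)) + (φ p.1 + φ p.2))) := by ring
    rw [e]
    gcongr
    exact le_tsub_add
  -- step 4
  have hle1 : ∀ a b, I1 (a, b) + I2 (a, b) ≤ 1 := by
    intro a b
    by_cases h1 : (a, b) ∈ W1 f
    · have h2 : (a, b) ∉ W2 f := fun h2 => (disjoint_W1_W2 f).le_bot ⟨h1, h2⟩
      rw [hI1, hI2, indicator_of_mem h1, indicator_of_notMem h2, add_zero]
    · rw [hI1, hI2, indicator_of_notMem h1, zero_add]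
      exact indicator_le_self' (fun _ _ => zero_le) _ |>.trans le_rfl
  have hzero : ∀ a b, ¬ a < b → I1 (a, b) + I2 (a, b) = 0 := by
    intro a b hab
    have h1 : (a, b) ∉ W1 f := fun h1 => hab h1.1.1
    have h2 : (a, b) ∉ W2 f := fun h2 => hab (lt_of_mem_W2 h2)
    rw [hI1, hI2, indicator_of_notMem h1, indicator_of_notMem h2, add_zero]
  have step4 : (∫⁻ p : ℝ × ℝ, (I1 p + I2 p) * (g p.1 * h p.2 *
        (ENNReal.ofReal (d * (p.2 - p.1)) - (φ p.1 + φ p.2)))) ≤
      ∫⁻ a, ∫⁻ b in Ioi a, g a * h b * (ENNReal.ofReal (d * (b - a)) - (φ a + φ b)) := by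
    rw [Measure.volume_eq_prod, lintegral_prod _ hT.aemeasurable]
    refine lintegral_mono fun a => ?_
    rw [← lintegral_indicator measurableSet_Ioi]
    refine lintegral_mono fun b => ?_
    by_cases hab : a < b
    · rw [indicator_of_mem (mem_Ioi.2 hab)]
      exact mul_le_of_le_one_left zero_le (hle1 a b)
    · show (I1 (a, b) + I2 (a, b)) * _ ≤ _
      rw [hzero a b hab, zero_mul]
      exact zero_le
  -- step 5
  have step5 : (∫⁻ p : ℝ × ℝ, (I1 p + I2 p) * (g p.1 * h p.2 * φ p.1)) ≤ ∫⁻ a, g a * φ a := by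
    rw [Measure.volume_eq_prod, lintegral_prod _ hL.aemeasurable]
    refine lintegral_mono fun a => ?_
    have m1 : Measurable fun b => I1 (a, b) * h b :=
      (hI1m.comp measurable_prodMk_left).mul hhm
    have m2 : Measurable fun b => I2 (a, b) * h b :=
      (hI2m.comp measurable_prodMk_left).mul hhm
    have e1 : ∀ b, (I1 (a, b) + I2 (a, b)) * (g a * h b * φ a) =
        (g a * φ a) * (I1 (a, b) * h b + I2 (a, b) * h b) := fun b => by ring
    have m3 : Measurable fun b => I1 (a, b) * h b + I2 (a, b) * h b := m1.add m2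
    show ∫⁻ b, (I1 (a, b) + I2 (a, b)) * (g a * h b * φ a) ≤ g a * φ a
    simp only [e1]
    rw [lintegral_const_mul _ m3, lintegral_add_left m1]
    have c1 : ∫⁻ b, I1 (a, b) * h b ≤ ENNReal.ofReal (1 - f a) := by
      refine le_trans (le_of_eq ?_) (cost_left hf a)
      exact lintegral_congr fun b => (main_ind (W1 f) (fun p => h p.2) (a, b)).symm
    have c2 : ∫⁻ b, I2 (a, b) * h b ≤ ENNReal.ofReal (f a) := by
      refine le_trans (le_of_eq ?_) (cost_left_W2 hf a)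
      exact lintegral_congr fun b => (main_ind (W2 f) (fun p => h p.2) (a, b)).symm
    calc g a * φ a * ((∫⁻ b, I1 (a, b) * h b) + ∫⁻ b, I2 (a, b) * h b)
        ≤ g a * φ a * (ENNReal.ofReal (1 - f a) + ENNReal.ofReal (f a)) := by gcongr
      _ = g a * φ a := by rw [main_one _ (hf.nonneg a) (hf.le_one a), mul_one]
  -- step 6
  have step6 : (∫⁻ p : ℝ × ℝ, (I1 p + I2 p) * (g p.1 * h p.2 * φ p.2)) ≤ ∫⁻ b, h b * φ b := by
    rw [Measure.volume_eq_prod, lintegral_prod_symm _ hR.aemeasurable]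
    refine lintegral_mono fun b => ?_
    have m1 : Measurable fun a => I1 (a, b) * g a :=
      (hI1m.comp measurable_prodMk_right).mul hgm
    have m2 : Measurable fun a => I2 (a, b) * g a :=
      (hI2m.comp measurable_prodMk_right).mul hgm
    have e1 : ∀ a, (I1 (a, b) + I2 (a, b)) * (g a * h b * φ b) =
        (h b * φ b) * (I1 (a, b) * g a + I2 (a, b) * g a) := fun a => by ring
    have m3 : Measurable fun a => I1 (a, b) * g a + I2 (a, b) * g a := m1.add m2
    show ∫⁻ a, (I1 (a, b) + I2 (a, b)) * (g a * h b * φ b) ≤ h b * φ b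
    simp only [e1]
    rw [lintegral_const_mul _ m3, lintegral_add_left m1]
    have c1 : ∫⁻ a, I1 (a, b) * g a ≤ ENNReal.ofReal (f b) := by
      refine le_trans (le_of_eq ?_) (cost_right hf b)
      exact lintegral_congr fun a => (main_ind (W1 f) (fun p => g p.1) (a, b)).symm
    have c2 : ∫⁻ a, I2 (a, b) * g a ≤ ENNReal.ofReal (1 - f b) := by
      refine le_trans (le_of_eq ?_) (cost_right_W2 hf b)
      exact lintegral_congr fun a => (main_ind (W2 f) (fun p => g p.1) (a, b)).symm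
    calc h b * φ b * ((∫⁻ a, I1 (a, b) * g a) + ∫⁻ a, I2 (a, b) * g a)
        ≤ h b * φ b * (ENNReal.ofReal (f b) + ENNReal.ofReal (1 - f b)) := by gcongr
      _ = h b * φ b := by
        rw [add_comm (ENNReal.ofReal (f b)), main_one _ (hf.nonneg b) (hf.le_one b), mul_one]
  have step7 : (∫⁻ a, g a * φ a) + ∫⁻ b, h b * φ b = ∫⁻ t, ENNReal.ofReal |deriv f t| * φ t := by
    have hgφ : Measurable fun a => g a * φ a := hgm.mul hφ
    rw [← lintegral_add_left hgφ]
    refine lintegral_congr fun t => ?_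
    rw [← add_mul]
    simp only [hg, hh, main_abs]
  calc ENNReal.ofReal d * ∫⁻ t, ENNReal.ofReal (f t ^ 2)
      ≤ _ := step2
    _ ≤ _ := step3
    _ ≤ (∫⁻ a, ∫⁻ b in Ioi a, g a * h b * (ENNReal.ofReal (d * (b - a)) - (φ a + φ b))) +
        ((∫⁻ a, g a * φ a) + ∫⁻ b, h b * φ b) := add_le_add step4 (add_le_add step5 step6)
    _ = _ := by rw [step7]

end Vale.Agent.Lib.P219.LL
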