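import Mathlib.Analysis.Calculus.ContDiff.Defs
import Mathlib.MeasureTheory.Measure.Lebesgue.Basic

/-! # P219 Line Lemma: definitions -/

namespace Vale.Agent.Lib.P219.LL

open MeasureTheory Set
open scoped ENNReal

/-- `t` lies in the component of `{f > f a}` whose left end is `a`. -/
def Cmp (f : ℝ → ℝ) : Set (ℝ × ℝ) := {p | p.1 < p.2 ∧ ∀ t ∈ Ioc p.1 p.2, f p.1 < f t}

/-- Pairs `(a, b)`: `b` lies in the component of `{f > f a}` with left end `a`
and is a strict right record of `f` in it. -/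
def W1 (f : ℝ → ℝ) : Set (ℝ × ℝ) :=
  {p | p ∈ Cmp f ∧ ∀ t, p.2 < t → (∀ s ∈ Icc p.2 t, f p.1 < f s) → f t < f p.2}

/-- mirror image of `W1` -/
def W2 (f : ℝ → ℝ) : Set (ℝ × ℝ) := {p | (-p.2, -p.1) ∈ W1 (fun t => f (-t))}

/-- the class of functions -/
structure Good (f : ℝ → ℝ) : Prop where
  smooth : ContDiff ℝ 1 f
  supp : HasCompactSupport f
  nonneg : ∀ t, 0 ≤ f t
  le_one : ∀ t, f t ≤ 1

end Vale.Agent.Lib.P219.LL
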