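import Mathlib.Algebra.Order.Star.Real
import Mathlib.Order.CompletePartialOrder
import Vale.Agent.Lib.P219.LL.Defs

/-! # P219 Line Lemma: measurability -/

namespace Vale.Agent.Lib.P219.LL

open MeasureTheory Set
open scoped ENNReal

/-- parametrization of a compact interval by the unit interval -/
private theorem Meas_param {a b t : ℝ} (ht : t ∈ Icc a b) :
    ∃ θ : unitInterval, t = a + θ * (b - a) := by
  rcases eq_or_lt_of_le (ht.1.trans ht.2) with h | h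
  · refine ⟨0, ?_⟩
    have h1 : t = a := le_antisymm (by rw [h]; exact ht.2) ht.1
    simp [h1]
  · have h0 : 0 < b - a := sub_pos.2 h
    refine ⟨⟨(t - a) / (b - a), div_nonneg (sub_nonneg.2 ht.1) h0.le,
      (div_le_one h0).2 (by linarith [ht.2])⟩, ?_⟩
    show t = a + (t - a) / (b - a) * (b - a)
    rw [div_mul_cancel₀ _ h0.ne']
    ring

private theorem Meas_param_mem {a b : ℝ} (hab : a ≤ b) (θ : unitInterval) :
    a + θ * (b - a) ∈ Icc a b := by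
  have h0 := θ.2.1
  have h1 := θ.2.2
  constructor
  · nlinarith
  · nlinarith

/-- projection along the unit interval -/
private theorem Meas_proj {C : Set ((ℝ × ℝ) × unitInterval)} (hC : IsClosed C) :
    IsClosed {p : ℝ × ℝ | ∃ θ : unitInterval, (p, θ) ∈ C} := by
  have h := isClosedMap_fst_of_compactSpace (X := ℝ × ℝ) (Y := unitInterval) C hC
  have e : {p : ℝ × ℝ | ∃ θ : unitInterval, (p, θ) ∈ C} = Prod.fst '' C := by
    ext p
    constructor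
    · rintro ⟨θ, hθ⟩
      exact ⟨(p, θ), hθ, rfl⟩
    · rintro ⟨⟨p', θ⟩, hθ, rfl⟩
      exact ⟨θ, hθ⟩
  rw [e]
  exact h

private theorem Meas_inv_pos (m : ℕ) : (0 : ℝ) < 1 / (m + 1) := by positivity

private theorem Meas_Cmp {f : ℝ → ℝ} (hf : Continuous f) : MeasurableSet (Cmp f) := by
  have hA : ∀ m : ℕ, IsClosed {p : ℝ × ℝ | ∃ θ : unitInterval, (p, θ) ∈
      {z : (ℝ × ℝ) × unitInterval | z.1.1 + 1 / ((m : ℝ) + 1) ≤ z.1.2 ∧
        f (z.1.1 + 1 / ((m : ℝ) + 1) + z.2 * (z.1.2 - (z.1.1 + 1 / ((m : ℝ) + 1)))) ≤ f z.1.1}} := by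
    intro m
    apply Meas_proj
    have c1 : IsClosed {z : (ℝ × ℝ) × unitInterval | z.1.1 + 1 / ((m : ℝ) + 1) ≤ z.1.2} :=
      isClosed_le (by fun_prop) (by fun_prop)
    have c2 : IsClosed {z : (ℝ × ℝ) × unitInterval | f (z.1.1 + 1 / ((m : ℝ) + 1) +
        z.2 * (z.1.2 - (z.1.1 + 1 / ((m : ℝ) + 1)))) ≤ f z.1.1} :=
      isClosed_le (hf.comp (by fun_prop)) (hf.comp (by fun_prop))
    exact c1.inter c2
  have e : Cmp f = {p : ℝ × ℝ | p.1 < p.2} \ ⋃ m : ℕ, {p : ℝ × ℝ | ∃ θ : unitInterval, (p, θ) ∈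
      {z : (ℝ × ℝ) × unitInterval | z.1.1 + 1 / ((m : ℝ) + 1) ≤ z.1.2 ∧
        f (z.1.1 + 1 / ((m : ℝ) + 1) + z.2 * (z.1.2 - (z.1.1 + 1 / ((m : ℝ) + 1)))) ≤
          f z.1.1}} := by
    ext p
    constructor
    · rintro ⟨h1, h2⟩
      refine ⟨h1, ?_⟩
      intro hU
      obtain ⟨m, θ, h3, h4⟩ := mem_iUnion.1 hU
      have h5 := Meas_param_mem h3 θ
      have h6 := Meas_inv_pos m
      exact absurd (h2 _ ⟨by linarith [h5.1], h5.2⟩) (not_lt.2 h4)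
    · rintro ⟨h1, h2⟩
      refine ⟨h1, fun t ht => ?_⟩
      by_contra h3
      apply h2
      obtain ⟨m, hm⟩ := exists_nat_one_div_lt (sub_pos.2 ht.1)
      have h4 : t ∈ Icc (p.1 + 1 / ((m : ℝ) + 1)) p.2 := ⟨by linarith, ht.2⟩
      obtain ⟨θ, hθ⟩ := Meas_param h4
      refine mem_iUnion.2 ⟨m, θ, h4.1.trans h4.2, ?_⟩
      show f (p.1 + 1 / ((m : ℝ) + 1) + θ * (p.2 - (p.1 + 1 / ((m : ℝ) + 1)))) ≤ f p.1
      rw [← hθ]
      exact not_lt.1 h3
  rw [e]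
  exact (measurableSet_lt measurable_fst measurable_snd).diff
    (MeasurableSet.iUnion fun m => (hA m).measurableSet)

private theorem Meas_W1 {f : ℝ → ℝ} (hf : Continuous f) : MeasurableSet (W1 f) := by
  have hA : ∀ m : ℕ, IsClosed {p : ℝ × ℝ | ∃ θ : unitInterval, (p, θ) ∈
      {z : (ℝ × ℝ) × unitInterval | z.1.2 + 1 / ((m : ℝ) + 1) ≤ m ∧
        f z.1.2 ≤ f (z.1.2 + 1 / ((m : ℝ) + 1) + z.2 * (m - (z.1.2 + 1 / ((m : ℝ) + 1)))) ∧
        ∀ σ : unitInterval, f z.1.1 + 1 / ((m : ℝ) + 1) ≤ f (z.1.2 + σ *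
          (z.1.2 + 1 / ((m : ℝ) + 1) + z.2 * (m - (z.1.2 + 1 / ((m : ℝ) + 1))) - z.1.2))}} := by
    intro m
    apply Meas_proj
    have c1 : IsClosed {z : (ℝ × ℝ) × unitInterval | z.1.2 + 1 / ((m : ℝ) + 1) ≤ m} :=
      isClosed_le (by fun_prop) (by fun_prop)
    have c2 : IsClosed {z : (ℝ × ℝ) × unitInterval | f z.1.2 ≤ f (z.1.2 + 1 / ((m : ℝ) + 1) +
        z.2 * (m - (z.1.2 + 1 / ((m : ℝ) + 1))))} :=
      isClosed_le (hf.comp (by fun_prop)) (hf.comp (by fun_prop))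
    refine c1.inter (c2.inter ?_)
    · have h1 : {z : (ℝ × ℝ) × unitInterval | ∀ σ : unitInterval,
          f z.1.1 + 1 / ((m : ℝ) + 1) ≤ f (z.1.2 + σ *
          (z.1.2 + 1 / ((m : ℝ) + 1) + z.2 * (m - (z.1.2 + 1 / ((m : ℝ) + 1))) - z.1.2))}
          = ⋂ σ : unitInterval, {z : (ℝ × ℝ) × unitInterval |
          f z.1.1 + 1 / ((m : ℝ) + 1) ≤ f (z.1.2 + σ *
          (z.1.2 + 1 / ((m : ℝ) + 1) + z.2 * (m - (z.1.2 + 1 / ((m : ℝ) + 1))) - z.1.2))} := by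
        ext z
        simp only [mem_ofPred_eq, mem_iInter]
      show IsClosed {z : (ℝ × ℝ) × unitInterval | ∀ σ : unitInterval,
          f z.1.1 + 1 / ((m : ℝ) + 1) ≤ f (z.1.2 + σ *
          (z.1.2 + 1 / ((m : ℝ) + 1) + z.2 * (m - (z.1.2 + 1 / ((m : ℝ) + 1))) - z.1.2))}
      rw [h1]
      refine isClosed_iInter fun σ => isClosed_le ?_ ?_
      · exact (hf.comp (by fun_prop)).add continuous_const
      · exact hf.comp (by fun_prop)
  have e : W1 f = Cmp f \ ⋃ m : ℕ, {p : ℝ × ℝ | ∃ θ : unitInterval, (p, θ) ∈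
      {z : (ℝ × ℝ) × unitInterval | z.1.2 + 1 / ((m : ℝ) + 1) ≤ m ∧
        f z.1.2 ≤ f (z.1.2 + 1 / ((m : ℝ) + 1) + z.2 * (m - (z.1.2 + 1 / ((m : ℝ) + 1)))) ∧
        ∀ σ : unitInterval, f z.1.1 + 1 / ((m : ℝ) + 1) ≤ f (z.1.2 + σ *
          (z.1.2 + 1 / ((m : ℝ) + 1) + z.2 * (m - (z.1.2 + 1 / ((m : ℝ) + 1))) - z.1.2))}} := by
    ext p
    constructor
    · rintro ⟨h1, h2⟩
      refine ⟨h1, ?_⟩
      intro hU
      obtain ⟨m, θ, h3, h4, h5⟩ := mem_iUnion.1 hU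
      have h6 := Meas_param_mem h3 θ
      have h7 := Meas_inv_pos m
      refine absurd (h2 _ (by linarith [h6.1]) ?_) (not_lt.2 h4)
      intro s hs
      obtain ⟨σ, hσ⟩ := Meas_param hs
      have h8 := h5 σ
      rw [hσ]
      exact lt_of_lt_of_le (by linarith) h8
    · rintro ⟨h1, h2⟩
      refine ⟨h1, fun t ht hs => ?_⟩
      by_contra h3
      apply h2
      -- minimum of `f` on `[p.2, t]`
      obtain ⟨s₀, hs₀, hmin⟩ := isCompact_Icc.exists_isMinOn (nonempty_Icc.2 ht.le)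
        (hf.continuousOn (s := Icc p.2 t))
      have h4 : 0 < f s₀ - f p.1 := sub_pos.2 (hs s₀ hs₀)
      obtain ⟨m1, hm1⟩ := exists_nat_one_div_lt h4
      obtain ⟨m2, hm2⟩ := exists_nat_one_div_lt (sub_pos.2 ht)
      obtain ⟨m3, hm3⟩ := exists_nat_ge t
      obtain ⟨m, hm⟩ : ∃ m : ℕ, m = max m1 (max m2 m3) := ⟨_, rfl⟩
      have g1 : 1 / ((m : ℝ) + 1) ≤ 1 / ((m1 : ℝ) + 1) := by
        apply one_div_le_one_div_of_le (by positivity)
        have : m1 ≤ m := by rw [hm]; exact le_max_left _ _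
        have : (m1 : ℝ) ≤ m := by exact_mod_cast this
        linarith
      have g2 : 1 / ((m : ℝ) + 1) ≤ 1 / ((m2 : ℝ) + 1) := by
        apply one_div_le_one_div_of_le (by positivity)
        have : m2 ≤ m := by rw [hm]; exact (le_max_left _ _).trans (le_max_right _ _)
        have : (m2 : ℝ) ≤ m := by exact_mod_cast this
        linarith
      have g3 : t ≤ m := by
        have : m3 ≤ m := by rw [hm]; exact (le_max_right _ _).trans (le_max_right _ _)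
        have : (m3 : ℝ) ≤ m := by exact_mod_cast this
        linarith
      have h5 : t ∈ Icc (p.2 + 1 / ((m : ℝ) + 1)) m := ⟨by linarith, g3⟩
      obtain ⟨θ, hθ⟩ := Meas_param h5
      refine mem_iUnion.2 ⟨m, θ, h5.1.trans h5.2, ?_, ?_⟩
      · show f p.2 ≤ f (p.2 + 1 / ((m : ℝ) + 1) + θ * (m - (p.2 + 1 / ((m : ℝ) + 1))))
        rw [← hθ]
        exact not_lt.1 h3
      · intro σ
        show f p.1 + 1 / ((m : ℝ) + 1) ≤ f (p.2 + σ *
          (p.2 + 1 / ((m : ℝ) + 1) + θ * (m - (p.2 + 1 / ((m : ℝ) + 1))) - p.2))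
        rw [← hθ]
        have h6 : f s₀ ≤ f (p.2 + σ * (t - p.2)) := hmin (Meas_param_mem ht.le σ)
        linarith
  rw [e]
  exact (Meas_Cmp hf).diff (MeasurableSet.iUnion fun m => (hA m).measurableSet)

theorem measurableSet_Cmp {f : ℝ → ℝ} (hf : Continuous f) : MeasurableSet (Cmp f) :=
  Meas_Cmp hf

theorem measurableSet_W1 {f : ℝ → ℝ} (hf : Continuous f) (hs : HasCompactSupport f)
    (h0 : ∀ t, 0 ≤ f t) : MeasurableSet (W1 f) := by
  have _ := hs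
  have _ := h0
  exact Meas_W1 hf

theorem measurableSet_W2 {f : ℝ → ℝ} (hf : Continuous f) (hs : HasCompactSupport f)
    (h0 : ∀ t, 0 ≤ f t) : MeasurableSet (W2 f) := by
  have _ := hs
  have _ := h0
  have h1 : Measurable fun p : ℝ × ℝ => ((-p.2, -p.1) : ℝ × ℝ) := by fun_prop
  exact h1 (Meas_W1 (f := fun t => f (-t)) (hf.comp continuous_neg))

theorem disjoint_W1_W2 (f : ℝ → ℝ) : Disjoint (W1 f) (W2 f) := by
  rw [Set.disjoint_left]
  rintro p ⟨⟨h1, h2⟩, -⟩ ⟨⟨h3, h4⟩, -⟩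
  have e1 : f p.1 < f p.2 := h2 p.2 ⟨h1, le_rfl⟩
  have e2 : f (- -p.2) < f (- -p.1) := h4 (-p.1) ⟨h3, le_rfl⟩
  rw [neg_neg, neg_neg] at e2
  exact lt_asymm e1 e2

theorem lt_of_mem_W2 {f : ℝ → ℝ} {p : ℝ × ℝ} (hp : p ∈ W2 f) : p.1 < p.2 := by
  have h : -p.2 < -p.1 := hp.1.1
  linarith

end Vale.Agent.Lib.P219.LL
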