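import Mathlib.MeasureTheory.Function.JacobianOneDim
import Vale.Agent.Lib.P219.LL.Defs
import Vale.Agent.Lib.P219.LL.Meas

/-! # P219 Line Lemma: costs of the pairs in `W1` -/

namespace Vale.Agent.Lib.P219.LL

open MeasureTheory Set
open scoped ENNReal

private lemma cost_image {f : ℝ → ℝ} (hf : Good f) {S : Set ℝ} (hS : MeasurableSet S)
    (hinj : InjOn f S) : ∫⁻ x in S, ENNReal.ofReal |deriv f x| = volume (f '' S) := by
  have hd : ∀ x ∈ S, HasDerivWithinAt f (deriv f x) S x := fun x _ =>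
    ((hf.smooth.differentiable one_ne_zero) x).hasDerivAt.hasDerivWithinAt
  have h := lintegral_image_eq_lintegral_abs_deriv_mul hS hd hinj (fun _ => 1)
  simp only [mul_one] at h
  rw [← h, lintegral_const, Measure.restrict_apply_univ, one_mul]

/-- for fixed left point `a`, the levels `f b` of the partners `b` are distinct and lie in `(f a, 1]` -/
theorem cost_left {f : ℝ → ℝ} (hf : Good f) (a : ℝ) :
    ∫⁻ b, (W1 f).indicator (fun p => ENNReal.ofReal (-(deriv f p.2))) (a, b)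
      ≤ ENNReal.ofReal (1 - f a) := by
  have hm : MeasurableSet {b : ℝ | (a, b) ∈ W1 f} :=
    measurable_prodMk_left (measurableSet_W1 hf.smooth.continuous hf.supp hf.nonneg)
  have hinj : InjOn f {b : ℝ | (a, b) ∈ W1 f} := by
    have key : ∀ b ∈ {b : ℝ | (a, b) ∈ W1 f}, ∀ b' ∈ {b : ℝ | (a, b) ∈ W1 f}, b < b' →
        f b' < f b := by
      intro b hb b' hb' hlt
      refine hb.2 b' hlt (fun s hs => hb'.1.2 s ⟨lt_of_lt_of_le hb.1.1 hs.1, hs.2⟩)
    intro b hb b' hb' h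
    rcases lt_trichotomy b b' with h1 | h1 | h1
    · exact absurd h (key b hb b' hb' h1).ne'
    · exact h1
    · exact absurd h (key b' hb' b hb h1).ne
  have h1 : ∀ b : ℝ, (W1 f).indicator (fun p => ENNReal.ofReal (-(deriv f p.2))) (a, b)
      = {b : ℝ | (a, b) ∈ W1 f}.indicator (fun b => ENNReal.ofReal (-(deriv f b))) b := by
    intro b
    by_cases hb : (a, b) ∈ W1 f
    · rw [indicator_of_mem hb, indicator_of_mem (show b ∈ {b : ℝ | (a, b) ∈ W1 f} from hb)]
    · rw [indicator_of_notMem hb, indicator_of_notMem (show b ∉ {b : ℝ | (a, b) ∈ W1 f} from hb)]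
  rw [lintegral_congr h1, lintegral_indicator hm]
  calc ∫⁻ b in {b : ℝ | (a, b) ∈ W1 f}, ENNReal.ofReal (-(deriv f b))
      ≤ ∫⁻ b in {b : ℝ | (a, b) ∈ W1 f}, ENNReal.ofReal |deriv f b| :=
        lintegral_mono (fun b => ENNReal.ofReal_le_ofReal (neg_le_abs _))
    _ = volume (f '' {b : ℝ | (a, b) ∈ W1 f}) := cost_image hf hm hinj
    _ ≤ volume (Ioc (f a) 1) := by
        apply measure_mono
        rintro _ ⟨b, hb, rfl⟩
        exact ⟨hb.1.2 b ⟨hb.1.1, le_rfl⟩, hf.le_one b⟩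
    _ = ENNReal.ofReal (1 - f a) := Real.volume_Ioc

/-- for fixed right point `b`, the levels `f a` of the partners `a` are distinct and lie in `[0, f b)` -/
theorem cost_right {f : ℝ → ℝ} (hf : Good f) (b : ℝ) :
    ∫⁻ a, (W1 f).indicator (fun p => ENNReal.ofReal (deriv f p.1)) (a, b)
      ≤ ENNReal.ofReal (f b) := by
  have hm : MeasurableSet {a : ℝ | (a, b) ∈ W1 f} :=
    measurable_prodMk_right (measurableSet_W1 hf.smooth.continuous hf.supp hf.nonneg)
  have hinj : InjOn f {a : ℝ | (a, b) ∈ W1 f} := by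
    have key : ∀ a ∈ {a : ℝ | (a, b) ∈ W1 f}, ∀ a' ∈ {a : ℝ | (a, b) ∈ W1 f}, a < a' →
        f a < f a' := fun a ha a' ha' hlt => ha.1.2 a' ⟨hlt, le_of_lt ha'.1.1⟩
    intro a ha a' ha' h
    rcases lt_trichotomy a a' with h1 | h1 | h1
    · exact absurd h (key a ha a' ha' h1).ne
    · exact h1
    · exact absurd h (key a' ha' a ha h1).ne'
  have h1 : ∀ a : ℝ, (W1 f).indicator (fun p => ENNReal.ofReal (deriv f p.1)) (a, b)
      = {a : ℝ | (a, b) ∈ W1 f}.indicator (fun a => ENNReal.ofReal (deriv f a)) a := by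
    intro a
    by_cases ha : (a, b) ∈ W1 f
    · rw [indicator_of_mem ha, indicator_of_mem (show a ∈ {a : ℝ | (a, b) ∈ W1 f} from ha)]
    · rw [indicator_of_notMem ha, indicator_of_notMem (show a ∉ {a : ℝ | (a, b) ∈ W1 f} from ha)]
  rw [lintegral_congr h1, lintegral_indicator hm]
  calc ∫⁻ a in {a : ℝ | (a, b) ∈ W1 f}, ENNReal.ofReal (deriv f a)
      ≤ ∫⁻ a in {a : ℝ | (a, b) ∈ W1 f}, ENNReal.ofReal |deriv f a| :=
        lintegral_mono (fun a => ENNReal.ofReal_le_ofReal (le_abs_self _))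
    _ = volume (f '' {a : ℝ | (a, b) ∈ W1 f}) := cost_image hf hm hinj
    _ ≤ volume (Ico 0 (f b)) := by
        apply measure_mono
        rintro _ ⟨a, ha, rfl⟩
        exact ⟨hf.nonneg a, ha.1.2 b ⟨ha.1.1, le_rfl⟩⟩
    _ = ENNReal.ofReal (f b) := by rw [Real.volume_Ico, sub_zero]

end Vale.Agent.Lib.P219.LL
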