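import Mathlib.MeasureTheory.Function.JacobianOneDim
import Mathlib.MeasureTheory.Integral.Layercake
import Vale.Agent.Lib.P219.LL.Defs
import Vale.Agent.Lib.P219.LL.Meas

/-! # P219 Line Lemma: length gained at a fixed left point -/

namespace Vale.Agent.Lib.P219.LL

open MeasureTheory Set
open scoped ENNReal

private theorem len1_mem_of_lt {f : ℝ → ℝ} {a t u : ℝ} (h : (a, t) ∈ Cmp f) (hau : a < u)
    (hut : u ≤ t) : (a, u) ∈ Cmp f :=
  ⟨hau, fun s hs => h.2 s ⟨hs.1, hs.2.trans hut⟩⟩

private theorem len1_extend {f : ℝ → ℝ} {a b t : ℝ} (h : (a, b) ∈ Cmp f) (hbt : b < t)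
    (h' : ∀ s ∈ Icc b t, f a < f s) : (a, t) ∈ Cmp f := by
  refine ⟨h.1.trans hbt, fun s hs => ?_⟩
  by_cases hsb : s ≤ b
  · exact h.2 s ⟨hs.1, hsb⟩
  · exact h' s ⟨(not_le.1 hsb).le, hs.2⟩

private theorem len1_rec {f : ℝ → ℝ} {a b : ℝ} (h : (a, b) ∈ W1 f) :
    (a, b) ∈ Cmp f ∧ ∀ t, b < t → (a, t) ∈ Cmp f → f t < f b := by
  refine ⟨h.1, fun t hbt ht => h.2 t hbt fun s hs => ?_⟩
  exact ht.2 s ⟨h.1.1.trans_le hs.1, hs.2⟩

private theorem len1_of_rec {f : ℝ → ℝ} {a b : ℝ} (h : (a, b) ∈ Cmp f)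
    (h' : ∀ t, b < t → (a, t) ∈ Cmp f → f t < f b) : (a, b) ∈ W1 f :=
  ⟨h, fun t hbt ht => h' t hbt (len1_extend h hbt ht)⟩

/-- points slightly to the right of a point of the component belong to the component -/
private theorem len1_near {f : ℝ → ℝ} (hf : Continuous f) {a b c : ℝ} (h : (a, b) ∈ Cmp f)
    (hc : c < f b) : ∃ t, b < t ∧ c < f t ∧ ∀ u, b < u → u ≤ t → (a, u) ∈ Cmp f ∧ c < f u := by
  have hab : f a < f b := h.2 b ⟨h.1, le_rfl⟩
  have hopen : IsOpen {u | max (f a) c < f u} := isOpen_lt continuous_const hf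
  have hb : b ∈ {u | max (f a) c < f u} := max_lt hab hc
  obtain ⟨ε, hε, hball⟩ := Metric.isOpen_iff.1 hopen b hb
  have key : ∀ u, b ≤ u → u ≤ b + ε / 2 → max (f a) c < f u := by
    intro u hu1 hu2
    apply hball
    rw [Metric.mem_ball, Real.dist_eq, abs_of_nonneg (by linarith)]
    linarith
  refine ⟨b + ε / 2, by linarith, (le_max_right _ _).trans_lt (key _ (by linarith) le_rfl), ?_⟩
  intro u hu1 hu2
  refine ⟨len1_extend h hu1 fun s hs => ?_, (le_max_right _ _).trans_lt (key u hu1.le hu2)⟩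
  exact (le_max_left _ _).trans_lt (key s hs.1 (hs.2.trans hu2))

private theorem len1_deriv {f : ℝ → ℝ} (hf : ContDiff ℝ 1 f) {a b : ℝ} (h : (a, b) ∈ W1 f) :
    deriv f b ≤ 0 := by
  obtain ⟨h1, h2⟩ := len1_rec h
  obtain ⟨t, ht1, -, ht2⟩ := len1_near hf.continuous h1 (c := f a) (h1.2 b ⟨h1.1, le_rfl⟩)
  have hd : HasDerivAt f (deriv f b) b := (hf.differentiable (by norm_num) b).hasDerivAt
  have hs : Filter.Tendsto (slope f b) (nhdsWithin b (Ioi b)) (nhds (deriv f b)) :=
    (hasDerivAt_iff_tendsto_slope.1 hd).mono_left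
      (nhdsWithin_mono _ fun x hx => (ne_of_gt hx))
  refine le_of_tendsto hs ?_
  filter_upwards [Ioc_mem_nhdsGT ht1] with u hu
  have h3 : f u < f b := h2 u hu.1 (ht2 u hu.1 hu.2).1
  rw [slope_def_field]
  exact div_nonpos_of_nonpos_of_nonneg (by linarith) (by linarith [hu.1])

private theorem len1_last {f : ℝ → ℝ} (hf : Continuous f) (hs : HasCompactSupport f)
    (h0 : ∀ t, 0 ≤ f t) {a t₀ c : ℝ} (ht₀ : (a, t₀) ∈ Cmp f) (hc : c < f t₀) (hac : f a < c) :
    ∃ b, (a, b) ∈ W1 f ∧ f b = c := by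
  set K : Set ℝ := {t | (a, t) ∈ Cmp f ∧ c ≤ f t} with hK
  have hne : K.Nonempty := ⟨t₀, ht₀, hc.le⟩
  have hbdd : BddAbove K := by
    have h1 : BddAbove (tsupport f) := hs.isCompact.bddAbove
    refine h1.mono fun t ht => subset_tsupport f ?_
    rw [Function.mem_support]
    have := h0 a
    have h2 := ht.2
    intro h3
    linarith
  set b : ℝ := sSup K with hb
  have hcl : b ∈ closure K := csSup_mem_closure hne hbdd
  have hcb : c ≤ f b := by
    have h1 : IsClosed {t | c ≤ f t} := isClosed_le continuous_const hf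
    exact closure_minimal (fun t ht => ht.2) h1 hcl
  have hle : ∀ t ∈ K, t ≤ b := fun t ht => le_csSup hbdd ht
  have hbI : (a, b) ∈ Cmp f := by
    refine ⟨ht₀.1.trans_le (hle t₀ ⟨ht₀, hc.le⟩), fun u hu => ?_⟩
    rcases hu.2.lt_or_eq with hlt | heq
    · obtain ⟨t, htK, hut⟩ := exists_lt_of_lt_csSup hne hlt
      exact htK.1.2 u ⟨hu.1, hut.le⟩
    · have hu' : u = b := heq
      rw [hu']
      exact hac.trans_le hcb
  have hfb : f b = c := by
    refine le_antisymm ?_ hcb
    by_contra hlt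
    rw [not_le] at hlt
    obtain ⟨t, ht1, ht2, ht3⟩ := len1_near hf hbI hlt
    have := hle t ⟨(ht3 t ht1 le_rfl).1, ht2.le⟩
    linarith
  refine ⟨b, len1_of_rec hbI fun t hbt ht => ?_, hfb⟩
  rw [hfb]
  by_contra hlt
  rw [not_lt] at hlt
  have := hle t ⟨ht, hlt⟩
  linarith

/-- every level in `(f a, sup f)` over the component has a last point, which is a record and lies to the
right of all points of the component above this level -/
theorem len_inner {f : ℝ → ℝ} (hf : Good f) (a : ℝ) :
    ∫⁻ t, (Cmp f).indicator (fun p => ENNReal.ofReal (f p.2 - f p.1)) (a, t)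
      ≤ ∫⁻ b, (W1 f).indicator
          (fun p => ENNReal.ofReal (-(deriv f p.2)) * ENNReal.ofReal (p.2 - p.1)) (a, b) := by
  have hc : Continuous f := hf.smooth.continuous
  set I : Set ℝ := {t | (a, t) ∈ Cmp f} with hI
  set S : Set ℝ := {b | (a, b) ∈ W1 f} with hS
  have hIm : MeasurableSet I := measurable_prodMk_left (measurableSet_Cmp hc)
  have hSm : MeasurableSet S := measurable_prodMk_left (measurableSet_W1 hc hf.supp hf.nonneg)
  set g : ℝ → ℝ≥0∞ := fun s => (volume.restrict I) {t | s < f t - f a} with hg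
  have e1 : ∫⁻ t, (Cmp f).indicator (fun p => ENNReal.ofReal (f p.2 - f p.1)) (a, t)
      = ∫⁻ t in I, ENNReal.ofReal (f t - f a) := by
    rw [← lintegral_indicator hIm]
    rfl
  have e2 : ∫⁻ t in I, ENNReal.ofReal (f t - f a) = ∫⁻ s in Ioi 0, g s := by
    refine lintegral_eq_lintegral_meas_lt (volume.restrict I) ?_ ?_
    · filter_upwards [ae_restrict_mem hIm] with t ht
      have := ht.2 t ⟨ht.1, le_rfl⟩
      show 0 ≤ f t - f a
      linarith
    · exact (hc.sub continuous_const).aemeasurable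
  have e3 : ∫⁻ s in Ioi 0, g s ≤ ∫⁻ s in (fun b => f b - f a) '' S, g s := by
    calc ∫⁻ s in Ioi 0, g s
        = ∫⁻ s in Ioi 0, ((fun b => f b - f a) '' S).indicator g s := by
          refine setLIntegral_congr_fun measurableSet_Ioi fun s hs => ?_
          by_cases hs2 : s ∈ (fun b => f b - f a) '' S
          · rw [indicator_of_mem hs2]
          · rw [indicator_of_notMem hs2]
            by_contra hne
            apply hs2
            have h1 : ({t | s < f t - f a} ∩ I).Nonempty := by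
              by_contra hemp
              rw [not_nonempty_iff_eq_empty] at hemp
              apply hne
              show (volume.restrict I) {t | s < f t - f a} = 0
              rw [Measure.restrict_apply' hIm, hemp, measure_empty]
            obtain ⟨t, ht1, ht2⟩ := h1
            have hs' : 0 < s := hs
            have ht1' : s < f t - f a := ht1
            obtain ⟨b, hb1, hb2⟩ := len1_last hc hf.supp hf.nonneg (a := a) (t₀ := t)
              (c := f a + s) ht2 (by linarith) (by linarith)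
            exact ⟨b, hb1, by show f b - f a = s; linarith⟩
      _ ≤ ∫⁻ s, ((fun b => f b - f a) '' S).indicator g s := setLIntegral_le_lintegral _ _
      _ ≤ ∫⁻ s in (fun b => f b - f a) '' S, g s := lintegral_indicator_le _ _
  have hinj : InjOn (fun b => f b - f a) S := by
    intro b1 hb1 b2 hb2 h12
    have h12' : f b1 - f a = f b2 - f a := h12
    rcases lt_trichotomy b1 b2 with h | h | h
    · have := (len1_rec hb1).2 b2 h (len1_rec hb2).1
      linarith
    · exact h
    · have := (len1_rec hb2).2 b1 h (len1_rec hb1).1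
      linarith
  have e4 : ∫⁻ s in (fun b => f b - f a) '' S, g s
      = ∫⁻ b in S, ENNReal.ofReal |deriv f b| * g (f b - f a) := by
    refine lintegral_image_eq_lintegral_abs_deriv_mul hSm ?_ hinj g
    intro b _
    exact (((hf.smooth.differentiable (by norm_num) b).hasDerivAt).sub_const (f a)).hasDerivWithinAt
  have e5 : ∫⁻ b in S, ENNReal.ofReal |deriv f b| * g (f b - f a)
      ≤ ∫⁻ b in S, ENNReal.ofReal (-(deriv f b)) * ENNReal.ofReal (b - a) := by
    refine setLIntegral_mono' hSm fun b hb => ?_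
    rw [abs_of_nonpos (len1_deriv hf.smooth hb)]
    gcongr
    show (volume.restrict I) {t | f b - f a < f t - f a} ≤ _
    rw [Measure.restrict_apply' hIm, ← Real.volume_Ioo]
    refine measure_mono ?_
    rintro t ⟨ht1, ht2⟩
    have ht1' : f b - f a < f t - f a := ht1
    refine ⟨ht2.1, ?_⟩
    by_contra hlt
    rw [not_lt] at hlt
    rcases hlt.lt_or_eq with h | h
    · have := (len1_rec hb).2 t h ht2
      linarith
    · rw [h] at ht1'
      linarith
  have e6 : ∫⁻ b in S, ENNReal.ofReal (-(deriv f b)) * ENNReal.ofReal (b - a)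
      = ∫⁻ b, (W1 f).indicator
          (fun p => ENNReal.ofReal (-(deriv f p.2)) * ENNReal.ofReal (p.2 - p.1)) (a, b) := by
    rw [← lintegral_indicator hSm]
    rfl
  rw [e1, e2]
  exact e3.trans ((e4.trans_le e5).trans_eq e6)

end Vale.Agent.Lib.P219.LL
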