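import Mathlib.Analysis.SpecialFunctions.Integrals.Basic
import Vale.Agent.Lib.P219.LL.Defs
import Vale.Agent.Lib.P219.LL.Meas

/-! # P219 Line Lemma: length gained at a fixed interior point -/

namespace Vale.Agent.Lib.P219.LL

open MeasureTheory Set
open scoped ENNReal

private theorem len2_level {f : ℝ → ℝ} (hf : Good f) (t s : ℝ) (hs : s ∈ Ioo 0 (f t)) :
    ∃ a, (a, t) ∈ Cmp f ∧ f a = s := by
  have hc : Continuous f := hf.smooth.continuous
  obtain ⟨x0, hx0t, hx0⟩ : ∃ x0, x0 ≤ t ∧ f x0 = 0 := by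
    obtain ⟨m, hm⟩ := hf.supp.isCompact.bddBelow
    refine ⟨min (m - 1) t, min_le_right _ _, ?_⟩
    by_contra hne
    have hmem : min (m - 1) t ∈ tsupport f := subset_closure hne
    have h1 := hm hmem
    have h2 := min_le_left (m - 1) t
    linarith
  set S : Set ℝ := {x | x ≤ t ∧ f x = s} with hS
  have hScl : IsClosed S := by
    have : S = Iic t ∩ f ⁻¹' {s} := by
      ext x; simp [hS]
    rw [this]
    exact isClosed_Iic.inter (isClosed_singleton.preimage hc)
  have hSne : S.Nonempty := by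
    have := intermediate_value_Icc hx0t hc.continuousOn
    have hmem : s ∈ Icc (f x0) (f t) := by
      rw [hx0]; exact ⟨hs.1.le, hs.2.le⟩
    obtain ⟨x, hx, hfx⟩ := this hmem
    exact ⟨x, hx.2, hfx⟩
  have hSb : BddAbove S := ⟨t, fun x hx => hx.1⟩
  have hmem : sSup S ∈ S := hScl.csSup_mem hSne hSb
  refine ⟨sSup S, ⟨?_, ?_⟩, hmem.2⟩
  · refine lt_of_le_of_ne hmem.1 ?_
    intro h
    have h2 : f (sSup S) = s := hmem.2
    have h' : sSup S = t := h
    rw [h'] at h2
    exact absurd h2 (ne_of_gt hs.2)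
  · intro u hu
    show f (sSup S) < f u
    rw [hmem.2]
    by_contra hle
    push Not at hle
    have := intermediate_value_Icc hu.2 hc.continuousOn
    obtain ⟨x, hx, hfx⟩ := this (show s ∈ Icc (f u) (f t) from ⟨hle, hs.2.le⟩)
    have hxS : x ∈ S := ⟨hx.2, hfx⟩
    have h1 := le_csSup hSb hxS
    have h2 : sSup S < u := hu.1
    have h3 := hx.1
    linarith

private theorem len2_deriv {f : ℝ → ℝ} (hf : Good f) (a t : ℝ) (h : (a, t) ∈ Cmp f) :
    0 ≤ deriv f a := by
  have hd : HasDerivAt f (deriv f a) a :=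
    (hf.smooth.differentiable (by norm_num) a).hasDerivAt
  have h1 : HasDerivWithinAt f (deriv f a) (Ioi a) a := hd.hasDerivWithinAt
  rw [hasDerivWithinAt_iff_tendsto_slope' (by simp)] at h1
  have hat : a < t := h.1
  refine ge_of_tendsto h1 ?_
  filter_upwards [Ioc_mem_nhdsGT hat] with u hu
  rw [slope_def_field]
  have h2 : f a < f u := h.2 u hu
  have h3 : a < u := hu.1
  exact div_nonneg (by linarith) (by linarith)

private theorem len2_inj {f : ℝ → ℝ} (t : ℝ) : InjOn f {a | (a, t) ∈ Cmp f} := by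
  intro a ha b hb hab
  rcases lt_trichotomy a b with h | h | h
  · have := ha.2 b ⟨h, (hb.1 : b < t).le⟩
    exact absurd hab (ne_of_lt this)
  · exact h
  · have := hb.2 a ⟨h, (ha.1 : a < t).le⟩
    exact absurd hab (ne_of_gt this)

private theorem len2_int (c : ℝ) (hc : 0 ≤ c) :
    ∫⁻ s in Ioo 0 c, ENNReal.ofReal (c - s) = ENNReal.ofReal (c ^ 2 / 2) := by
  have hint : IntegrableOn (fun s : ℝ => c - s) (Ioo 0 c) :=
    ((continuous_const.sub continuous_id).continuousOn.integrableOn_compact
      isCompact_Icc).mono_set Ioo_subset_Icc_self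
  rw [← ofReal_integral_eq_lintegral_ofReal hint]
  · congr 1
    rw [← integral_Ioc_eq_integral_Ioo, ← intervalIntegral.integral_of_le hc,
      intervalIntegral.integral_sub (by simp) (by simp)]
    simp
    ring
  · rw [Filter.EventuallyLE, ae_restrict_iff' measurableSet_Ioo]
    refine Filter.Eventually.of_forall fun s hs => ?_
    show (0 : ℝ) ≤ c - s
    have := hs.2
    linarith

/-- for fixed `t`, every level `s ∈ (0, f t)` is attained last before `t` at a point `a` with
`(a, t) ∈ Cmp f` -/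
theorem len_outer {f : ℝ → ℝ} (hf : Good f) (t : ℝ) :
    ENNReal.ofReal (f t ^ 2 / 2)
      ≤ ∫⁻ a, (Cmp f).indicator
          (fun p => ENNReal.ofReal (deriv f p.1) * ENNReal.ofReal (f p.2 - f p.1)) (a, t) := by
  have hm : MeasurableSet (Cmp f) := measurableSet_Cmp hf.smooth.continuous
  have hT : MeasurableSet {a | (a, t) ∈ Cmp f} := by
    have : Measurable (fun a : ℝ => (a, t)) := by fun_prop
    exact this hm
  have h1 : (∫⁻ a, (Cmp f).indicator
          (fun p => ENNReal.ofReal (deriv f p.1) * ENNReal.ofReal (f p.2 - f p.1)) (a, t))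
      = ∫⁻ a in {a | (a, t) ∈ Cmp f}, ENNReal.ofReal |deriv f a| * ENNReal.ofReal (f t - f a) := by
    rw [← lintegral_indicator hT]
    refine lintegral_congr fun a => ?_
    by_cases ha : (a, t) ∈ Cmp f
    · rw [indicator_of_mem ha, indicator_of_mem (show a ∈ {a | (a, t) ∈ Cmp f} from ha),
        abs_of_nonneg (len2_deriv hf a t ha)]
    · rw [indicator_of_notMem ha, indicator_of_notMem (show a ∉ {a | (a, t) ∈ Cmp f} from ha)]
  rw [h1]
  have h2 := lintegral_image_eq_lintegral_abs_deriv_mul (f := f) (f' := deriv f) hT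
    (fun x _ => ((hf.smooth.differentiable (by norm_num) x).hasDerivAt).hasDerivWithinAt)
    (len2_inj t) (fun s => ENNReal.ofReal (f t - s))
  rw [← h2, ← len2_int (f t) (hf.nonneg t)]
  refine lintegral_mono_set ?_
  intro s hs
  obtain ⟨a, ha, hfa⟩ := len2_level hf t s hs
  exact ⟨a, ha, hfa⟩

end Vale.Agent.Lib.P219.LL
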