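import Mathlib.MeasureTheory.Measure.Haar.Unique
import Vale.Agent.Lib.P219.LL.Meas
import Vale.Agent.Lib.P219.LL.Cost
import Vale.Agent.Lib.P219.LL.Len1
import Vale.Agent.Lib.P219.LL.Len2

/-! # P219 Line Lemma: lengths and costs of `W1` and `W2` -/

namespace Vale.Agent.Lib.P219.LL

open MeasureTheory Set
open scoped ENNReal

private theorem good_neg {f : ℝ → ℝ} (hf : Good f) : Good (fun t => f (-t)) where
  smooth := hf.smooth.comp contDiff_neg
  supp := hf.supp.comp_homeomorph (Homeomorph.neg ℝ)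
  nonneg := fun t => hf.nonneg (-t)
  le_one := fun t => hf.le_one (-t)

private theorem mem_W2_iff (f : ℝ → ℝ) (a b : ℝ) :
    (-b, -a) ∈ W2 f ↔ (a, b) ∈ W1 (fun t => f (-t)) := by
  show (-(-a), -(-b)) ∈ W1 (fun t => f (-t)) ↔ _
  rw [neg_neg, neg_neg]

theorem len_W1 {f : ℝ → ℝ} (hf : Good f) :
    ∫⁻ t, ENNReal.ofReal (f t ^ 2 / 2)
      ≤ ∫⁻ a, ∫⁻ b, (W1 f).indicator (fun p => ENNReal.ofReal (deriv f p.1)
          * ENNReal.ofReal (-(deriv f p.2)) * ENNReal.ofReal (p.2 - p.1)) (a, b) := by
  have hfc : Continuous f := hf.smooth.continuous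
  have hdc : Continuous (deriv f) := hf.smooth.continuous_deriv (by norm_num)
  have hmeas : Measurable ((Cmp f).indicator
      (fun p : ℝ × ℝ => ENNReal.ofReal (deriv f p.1) * ENNReal.ofReal (f p.2 - f p.1))) := by
    refine Measurable.indicator ?_ (measurableSet_Cmp hfc)
    exact ((hdc.comp continuous_fst).measurable.ennreal_ofReal).mul
      (((hfc.comp continuous_snd).sub (hfc.comp continuous_fst)).measurable.ennreal_ofReal)
  calc ∫⁻ t, ENNReal.ofReal (f t ^ 2 / 2)
      ≤ ∫⁻ t, ∫⁻ a, (Cmp f).indicator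
          (fun p => ENNReal.ofReal (deriv f p.1) * ENNReal.ofReal (f p.2 - f p.1)) (a, t) :=
        lintegral_mono fun t => len_outer hf t
    _ = ∫⁻ a, ∫⁻ t, (Cmp f).indicator
          (fun p => ENNReal.ofReal (deriv f p.1) * ENNReal.ofReal (f p.2 - f p.1)) (a, t) := by
        refine lintegral_lintegral_swap ?_
        exact (hmeas.comp measurable_swap).aemeasurable
    _ ≤ ∫⁻ a, ∫⁻ b, (W1 f).indicator (fun p => ENNReal.ofReal (deriv f p.1)
          * ENNReal.ofReal (-(deriv f p.2)) * ENNReal.ofReal (p.2 - p.1)) (a, b) := by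
        refine lintegral_mono fun a => ?_
        have e1 : ∫⁻ t, (Cmp f).indicator
            (fun p => ENNReal.ofReal (deriv f p.1) * ENNReal.ofReal (f p.2 - f p.1)) (a, t)
            = ENNReal.ofReal (deriv f a) * ∫⁻ t, (Cmp f).indicator
              (fun p => ENNReal.ofReal (f p.2 - f p.1)) (a, t) := by
          rw [← lintegral_const_mul' _ _ ENNReal.ofReal_ne_top]
          refine lintegral_congr fun t => ?_
          by_cases h : (a, t) ∈ Cmp f
          · rw [indicator_of_mem h, indicator_of_mem h]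
          · rw [indicator_of_notMem h, indicator_of_notMem h, mul_zero]
        have e2 : ∫⁻ b, (W1 f).indicator (fun p => ENNReal.ofReal (deriv f p.1)
            * ENNReal.ofReal (-(deriv f p.2)) * ENNReal.ofReal (p.2 - p.1)) (a, b)
            = ENNReal.ofReal (deriv f a) * ∫⁻ b, (W1 f).indicator
              (fun p => ENNReal.ofReal (-(deriv f p.2)) * ENNReal.ofReal (p.2 - p.1)) (a, b) := by
          rw [← lintegral_const_mul' _ _ ENNReal.ofReal_ne_top]
          refine lintegral_congr fun t => ?_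
          by_cases h : (a, t) ∈ W1 f
          · rw [indicator_of_mem h, indicator_of_mem h, mul_assoc]
          · rw [indicator_of_notMem h, indicator_of_notMem h, mul_zero]
        rw [e1, e2]
        exact mul_le_mul_right (len_inner hf a) _

theorem len_W2 {f : ℝ → ℝ} (hf : Good f) :
    ∫⁻ t, ENNReal.ofReal (f t ^ 2 / 2)
      ≤ ∫⁻ a, ∫⁻ b, (W2 f).indicator (fun p => ENNReal.ofReal (deriv f p.1)
          * ENNReal.ofReal (-(deriv f p.2)) * ENNReal.ofReal (p.2 - p.1)) (a, b) := by
  have hfc : Continuous f := hf.smooth.continuous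
  have hdc : Continuous (deriv f) := hf.smooth.continuous_deriv (by norm_num)
  have key := len_W1 (good_neg hf)
  set H : ℝ × ℝ → ℝ≥0∞ := (W2 f).indicator (fun p => ENNReal.ofReal (deriv f p.1)
          * ENNReal.ofReal (-(deriv f p.2)) * ENNReal.ofReal (p.2 - p.1)) with hH
  have hHm : Measurable H := by
    refine Measurable.indicator ?_ (measurableSet_W2 hfc hf.supp hf.nonneg)
    exact (((hdc.comp continuous_fst).measurable.ennreal_ofReal).mul
      ((hdc.comp continuous_snd).neg.measurable.ennreal_ofReal)).mul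
      ((continuous_snd.sub continuous_fst).measurable.ennreal_ofReal)
  have e1 : ∀ a b : ℝ, (W1 (fun t => f (-t))).indicator
      (fun p => ENNReal.ofReal (deriv (fun t => f (-t)) p.1)
          * ENNReal.ofReal (-(deriv (fun t => f (-t)) p.2)) * ENNReal.ofReal (p.2 - p.1)) (a, b)
      = H (-b, -a) := by
    intro a b
    rw [hH]
    by_cases h : (a, b) ∈ W1 (fun t => f (-t))
    · have h' : (-b, -a) ∈ W2 f := (mem_W2_iff f a b).2 h
      rw [indicator_of_mem h, indicator_of_mem h']
      simp only [deriv_comp_neg, neg_neg]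
      rw [mul_comm (ENNReal.ofReal (-deriv f (-a))) (ENNReal.ofReal (deriv f (-b)))]
      congr 2
      ring
    · have h' : (-b, -a) ∉ W2 f := fun h' => h ((mem_W2_iff f a b).1 h')
      rw [indicator_of_notMem h, indicator_of_notMem h']
  simp only [e1] at key
  rw [lintegral_neg_eq_self (fun t => ENNReal.ofReal (f t ^ 2 / 2))] at key
  refine key.trans (le_of_eq ?_)
  calc ∫⁻ a, ∫⁻ b, H (-b, -a) = ∫⁻ b, ∫⁻ a, H (-b, -a) := by
        refine lintegral_lintegral_swap ?_
        have : Measurable (fun p : ℝ × ℝ => H (-p.2, -p.1)) :=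
          hHm.comp (measurable_snd.neg.prodMk measurable_fst.neg)
        exact this.aemeasurable
    _ = ∫⁻ b, ∫⁻ a, H (-b, a) :=
        lintegral_congr fun b => lintegral_neg_eq_self (fun a => H (-b, a))
    _ = ∫⁻ b, ∫⁻ a, H (b, a) := lintegral_neg_eq_self (fun b => ∫⁻ a, H (b, a))

theorem cost_left_W2 {f : ℝ → ℝ} (hf : Good f) (a : ℝ) :
    ∫⁻ b, (W2 f).indicator (fun p => ENNReal.ofReal (-(deriv f p.2))) (a, b)
      ≤ ENNReal.ofReal (f a) := by
  have key := cost_right (good_neg hf) (-a)
  rw [← lintegral_neg_eq_self] at key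
  simp only [neg_neg] at key
  refine le_trans (le_of_eq (lintegral_congr fun b => ?_)) key
  have hiff := mem_W2_iff f (-b) (-a)
  rw [neg_neg, neg_neg] at hiff
  by_cases h : (a, b) ∈ W2 f
  · rw [indicator_of_mem h, indicator_of_mem (hiff.1 h)]
    simp only [deriv_comp_neg, neg_neg]
  · rw [indicator_of_notMem h, indicator_of_notMem fun h' => h (hiff.2 h')]

theorem cost_right_W2 {f : ℝ → ℝ} (hf : Good f) (b : ℝ) :
    ∫⁻ a, (W2 f).indicator (fun p => ENNReal.ofReal (deriv f p.1)) (a, b)
      ≤ ENNReal.ofReal (1 - f b) := by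
  have key := cost_left (good_neg hf) (-b)
  rw [← lintegral_neg_eq_self] at key
  simp only [neg_neg] at key
  refine le_trans (le_of_eq (lintegral_congr fun a => ?_)) key
  have hiff := mem_W2_iff f (-b) (-a)
  rw [neg_neg, neg_neg] at hiff
  by_cases h : (a, b) ∈ W2 f
  · rw [indicator_of_mem h, indicator_of_mem (hiff.1 h)]
    simp only [deriv_comp_neg, neg_neg]
  · rw [indicator_of_notMem h, indicator_of_notMem fun h' => h (hiff.2 h')]

end Vale.Agent.Lib.P219.LL
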